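import Vale.Agent.P216.H929V.HD
import Vale.Agent.P216.V1.Nat
import Vale.Agent.P216.V775.NTower

/-!
# P216-V, B6c: squares act on the germs of the hybrid algebras

`cdG X`: the cdga of germs of forms on small measures of `X`, `ndG π ρ A X`: the hybrid dga over it.
`SqS π ρ A X π' ρ' A' X' f ψ`: a square of maps (from the data without to the data with primes) at
all scales; the commutation is required on the sets only. `SqS.nmp`: the morphism over `gmap`.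
-/

set_option linter.all false

open Set Filter Topology
open scoped ContDiff

namespace Vale.Agent.P216.H539V

open Vale.Agent.P231.Fm Vale.Agent.P231.WA V1 V609 H285V H929V V775

noncomputable section

variable {E M N : Type} [PseudoMetricSpace E] [PseudoMetricSpace M] [PseudoMetricSpace N]
variable {π : E → N} {ρ : M → N} {A : Set M} {X : Set E}
variable {E' M' N' : Type} [PseudoMetricSpace E'] [PseudoMetricSpace M'] [PseudoMetricSpace N']
variable {π' : E' → N'} {ρ' : M' → N'} {A' : Set M'} {X' : Set E'}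
variable {E'' M'' N'' : Type} [PseudoMetricSpace E''] [PseudoMetricSpace M'']
  [PseudoMetricSpace N'']
variable {π'' : E'' → N''} {ρ'' : M'' → N''} {A'' : Set M''} {X'' : Set E''}
variable {f : E → E'} {ψ : M → M'} {f' : E' → E''} {ψ' : M' → M''}

/-- the germs of forms -/
def cdG (X : Set E) : CD.{1} ℝ := ⟨GA X, (vr X).cdga⟩

variable (π ρ A X) in
/-- the germs of the hybrid algebras, over the germs of forms -/
def ndG : ND.{1} (cdG X) := ⟨HD π ρ A X, hD π ρ A X, evD π ρ A X⟩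

variable (π ρ A X π' ρ' A' X' f ψ) in
/-- a square, at all scales -/
structure SqS : Prop where
  sq : ∀ ε, 0 < ε → SqD π ρ A X ε π' ρ' A' X' ε f ψ

namespace SqS

/-- **Squares of maps which do not increase distances**; everything only on the sets. -/
theorem of_lip {g : N → N'} (hX : ∀ x ∈ X, f x ∈ X')
    (hf : ∀ x ∈ X, ∀ y ∈ X, dist (f x) (f y) ≤ dist x y) (hA : ∀ a ∈ A, ψ a ∈ A')
    (hψ : ∀ a ∈ A, ∀ b ∈ A, dist (ψ a) (ψ b) ≤ dist a b) (h1 : ∀ x ∈ X, π' (f x) = g (π x))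
    (h2 : ∀ a ∈ A, ρ' (ψ a) = g (ρ a)) (hg : ∀ y y', dist (g y) (g y') ≤ dist y y') :
    SqS π ρ A X π' ρ' A' X' f ψ :=
  ⟨fun ε _ => SqD.of_map (SmM.of_lip hX hf le_rfl) (SmM.of_lip hA hψ le_rfl) h1 h2
    fun y y' h => (hg y y').trans_lt h⟩

/-- squares with a distance inequality only -/
theorem of_dist (hX : ∀ x ∈ X, f x ∈ X')
    (hf : ∀ x ∈ X, ∀ y ∈ X, dist (f x) (f y) ≤ dist x y) (hA : ∀ a ∈ A, ψ a ∈ A')
    (hψ : ∀ a ∈ A, ∀ b ∈ A, dist (ψ a) (ψ b) ≤ dist a b)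
    (h : ∀ a ∈ A, ∀ x ∈ X, dist (ρ' (ψ a)) (π' (f x)) ≤ dist (ρ a) (π x)) :
    SqS π ρ A X π' ρ' A' X' f ψ :=
  ⟨fun ε _ => ⟨SmM.of_lip hX hf le_rfl, SmM.of_lip hA hψ le_rfl,
    fun a ha x hx hd => (h a ha x hx).trans_lt hd⟩⟩

/-- inclusions of the sets -/
theorem incl {A₁ : Set M} {X₁ : Set E} (hA : A ⊆ A₁) (hX : X ⊆ X₁) :
    SqS π ρ A X π ρ A₁ X₁ id id :=
  of_lip (g := id) (fun x hx => hX hx) (fun x _ y _ => le_rfl) (fun a ha => hA ha)
    (fun a _ b _ => le_rfl) (fun x _ => rfl) (fun a _ => rfl) fun y y' => le_rfl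

theorem um (h : SqS π ρ A X π' ρ' A' X' f ψ) : UM X X' f := fun ε hε => ⟨ε, hε, (h.sq ε hε).smX⟩

theorem map (h : SqS π ρ A X π' ρ' A' X' f ψ) (ε : ℝ) (hε : 0 < ε) :
    (DT π ρ A X ε).Map (DT π' ρ' A' X' ε) (pm f ψ) := (h.sq ε hε).map

theorem comp (h' : SqS π' ρ' A' X' π'' ρ'' A'' X'' f' ψ') (h : SqS π ρ A X π' ρ' A' X' f ψ) :
    SqS π ρ A X π'' ρ'' A'' X'' (f' ∘ f) (ψ' ∘ ψ) :=
  ⟨fun ε hε => ⟨(h'.sq ε hε).smX.comp (h.sq ε hε).smX, (h'.sq ε hε).smA.comp (h.sq ε hε).smA,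
    fun a ha x hx hd => (h'.sq ε hε).smN _ ((h.sq ε hε).smA.mem a ha) _
      ((h.sq ε hε).smX.mem x hx) ((h.sq ε hε).smN a ha x hx hd)⟩⟩

variable (h : SqS π ρ A X π' ρ' A' X' f ψ)

/-- **the morphism of a square** -/
def nmp : NMp (X := cdG X') (Y := cdG X) (gmap h.um) (ndG π' ρ' A' X') (ndG π ρ A X) where
  g := pullD sq_pm h.map
  ev a := pullD_evD sq_pm h.map (fun ε hε => map_dm (h.sq ε hε).smX) h.um.fam (fun _ => rfl) a

theorem nmp_germ {ε : ℝ} (hε : 0 < ε) (w : HT π' ρ' A' X' ε) :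
    h.nmp.g.f (germD π' ρ' A' X' hε w) =
      germD π ρ A X hε ((pullHom sq_pm (h.map ε hε)).f w) := rfl

theorem pm_comp : pm f' ψ' ∘ pm f ψ = pm (f' ∘ f) (ψ' ∘ ψ) := by
  funext p
  refine Prod.ext ?_ ?_
  · exact (Finsupp.mapDomain_comp (v := p.1) (f := f) (g := f')).symm
  · exact List.map_map

/-- functoriality -/
theorem nmp_comp (h' : SqS π' ρ' A' X' π'' ρ'' A'' X'' f' ψ') {F : E → E''} {Ψ : M → M''}
    (h'' : SqS π ρ A X π'' ρ'' A'' X'' F Ψ) (hF : F = f' ∘ f) (hΨ : Ψ = ψ' ∘ ψ)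
    (z : HD π'' ρ'' A'' X'') : h''.nmp.g.f z = h.nmp.g.f (h'.nmp.g.f z) := by
  subst hF hΨ
  have hs : Sq (pm f' ψ' ∘ pm f ψ) := by rw [pm_comp]; exact sq_pm
  have hm : ∀ ε, 0 < ε → (DT π ρ A X ε).Map (DT π'' ρ'' A'' X'' ε) (pm f' ψ' ∘ pm f ψ) := by
    rw [pm_comp]
    exact h''.map
  have e1 := pullD_comp sq_pm h'.map sq_pm h.map hs hm z
  exact (pullD_congr pm_comp hs hm sq_pm h''.map z).symm.trans e1

/-- **commuting squares of squares**: the compositions have to agree as maps of the points -/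
theorem nmp_sq {E₁ M₁ N₁ : Type} [PseudoMetricSpace E₁] [PseudoMetricSpace M₁]
    [PseudoMetricSpace N₁] {π₁ : E₁ → N₁} {ρ₁ : M₁ → N₁} {A₁ : Set M₁} {X₁ : Set E₁}
    {f₁ : E → E₁} {ψ₁ : M → M₁} {f₁' : E₁ → E''} {ψ₁' : M₁ → M''}
    (h' : SqS π' ρ' A' X' π'' ρ'' A'' X'' f' ψ') (h₁ : SqS π ρ A X π₁ ρ₁ A₁ X₁ f₁ ψ₁)
    (h₁' : SqS π₁ ρ₁ A₁ X₁ π'' ρ'' A'' X'' f₁' ψ₁') (hf : f' ∘ f = f₁' ∘ f₁)
    (hψ : ψ' ∘ ψ = ψ₁' ∘ ψ₁) (z : HD π'' ρ'' A'' X'') :
    h.nmp.g.f (h'.nmp.g.f z) = h₁.nmp.g.f (h₁'.nmp.g.f z) :=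
  (nmp_comp h h' (h'.comp h) rfl rfl z).symm.trans (nmp_comp h₁ h₁' (h'.comp h) hf hψ z)

theorem nmp_id (h : SqS π ρ A X π ρ A X id id) (z : HD π ρ A X) : h.nmp.g.f z = z := by
  have e : (pm id id : MP E M → MP E M) = id := by
    funext p
    refine Prod.ext ?_ ?_
    · exact Finsupp.mapDomain_id
    · exact List.map_id _
  have hm : ∀ ε, 0 < ε → (DT π ρ A X ε).Map (DT π ρ A X ε) id := by
    rw [← e]
    exact h.map
  exact (pullD_congr e sq_pm h.map Sq.id hm z).trans (pullD_id hm z)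

end SqS

/-! ### Squares which agree on the sets

Two squares which agree on the sets `X` and `A` have the same morphism. -/

/-- two maps of points which agree on the sets -/
theorem pm_congr {f₂ : E → E'} {ψ₂ : M → M'} (hf : EqOn f f₂ X) (hψ : EqOn ψ ψ₂ A) {ε : ℝ}
    {F : Finset E} {V : Type} [NormedAddCommGroup V] [NormedSpace ℝ V] {u : V → MP E M} {s : V}
    (h : Supp π ρ A X ε F u s) : pm f ψ ∘ u =ᶠ[𝓝 s] pm f₂ ψ₂ ∘ u := by
  filter_upwards [h.out, h.cst] with y h1 h2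
  refine Prod.ext ?_ ?_
  · show Finsupp.mapDomain f (u y).1 = Finsupp.mapDomain f₂ (u y).1
    refine Finsupp.mapDomain_congr fun x hx => hf (h.smF.1 x ?_)
    by_contra hx'
    exact (Finsupp.mem_support_iff.1 hx) (h1 x hx')
  · show (u y).2.map ψ = (u y).2.map ψ₂
    refine List.map_congr_left fun a ha => hψ (h.smA.1 a ?_)
    rwa [← h2]

namespace SqS

/-- **Two squares which agree on the sets have the same morphism.** -/
theorem nmp_eqOn (h : SqS π ρ A X π' ρ' A' X' f ψ) {f₂ : E → E'} {ψ₂ : M → M'}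
    (h₂ : SqS π ρ A X π' ρ' A' X' f₂ ψ₂) (hf : EqOn f f₂ X) (hψ : EqOn ψ ψ₂ A)
    (z : HD π' ρ' A' X') : h.nmp.g.f z = h₂.nmp.g.f z := by
  obtain ⟨ε, hε, w, rfl⟩ := exists_germD z
  rw [nmp_germ, nmp_germ]
  congr 1
  refine HT.ext ?_
  show Form.pull (pm f ψ) (h.map ε hε) w.val = Form.pull (pm f₂ ψ₂) (h₂.map ε hε) w.val
  refine Form.ext_val fun V _ _ _ u s hu => ?_
  rw [Form.pull_val (h.map ε hε) _ hu, Form.pull_val (h₂.map ε hε) _ hu]
  obtain ⟨F, hF⟩ := hu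
  exact w.val.congr (h.map ε hε ⟨F, hF⟩) (pm_congr hf hψ hF)

theorem congr (h : SqS π ρ A X π' ρ' A' X' f ψ) {f₂ : E → E'} {ψ₂ : M → M'} (hf : EqOn f f₂ X)
    (hψ : EqOn ψ ψ₂ A) : SqS π ρ A X π' ρ' A' X' f₂ ψ₂ :=
  ⟨fun ε hε => ⟨⟨fun x hx => by rw [← hf hx]; exact (h.sq ε hε).smX.mem x hx,
      fun x hx y hy hd => by rw [← hf hx, ← hf hy]; exact (h.sq ε hε).smX.sm x hx y hy hd⟩,
    ⟨fun x hx => by rw [← hψ hx]; exact (h.sq ε hε).smA.mem x hx,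
      fun x hx y hy hd => by rw [← hψ hx, ← hψ hy]; exact (h.sq ε hε).smA.sm x hx y hy hd⟩,
    fun a ha x hx hd => by rw [← hf hx, ← hψ ha]; exact (h.sq ε hε).smN a ha x hx hd⟩⟩

/-- **commuting squares of squares**: the compositions have to agree on the sets only -/
theorem nmp_sqOn {E₁ M₁ N₁ : Type} [PseudoMetricSpace E₁] [PseudoMetricSpace M₁]
    [PseudoMetricSpace N₁] {π₁ : E₁ → N₁} {ρ₁ : M₁ → N₁} {A₁ : Set M₁} {X₁ : Set E₁}
    {f₁ : E → E₁} {ψ₁ : M → M₁} {f₁' : E₁ → E''} {ψ₁' : M₁ → M''}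
    (h : SqS π ρ A X π' ρ' A' X' f ψ) (h' : SqS π' ρ' A' X' π'' ρ'' A'' X'' f' ψ')
    (h₁ : SqS π ρ A X π₁ ρ₁ A₁ X₁ f₁ ψ₁) (h₁' : SqS π₁ ρ₁ A₁ X₁ π'' ρ'' A'' X'' f₁' ψ₁')
    (hf : EqOn (f' ∘ f) (f₁' ∘ f₁) X) (hψ : EqOn (ψ' ∘ ψ) (ψ₁' ∘ ψ₁) A)
    (z : HD π'' ρ'' A'' X'') :
    h.nmp.g.f (h'.nmp.g.f z) = h₁.nmp.g.f (h₁'.nmp.g.f z) :=
  (nmp_comp h h' (h'.comp h) rfl rfl z).symm.trans
    ((nmp_eqOn (h'.comp h) (h₁'.comp h₁) hf hψ z).trans
      (nmp_comp h₁ h₁' (h₁'.comp h₁) rfl rfl z))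

end SqS

/-! ### The bases -/

/-- base changes which agree on the set -/
theorem gmap_eqOn {f₂ : E → E'} (hf : UM X X' f) (hf₂ : UM X X' f₂) (h : EqOn f f₂ X)
    (z : GA X') : (gmap hf).f z = (gmap hf₂).f z := by
  obtain ⟨ε, hε, w, rfl⟩ := (vr X').exists_germ z
  obtain ⟨δ, h1, h2⟩ := hf ε hε
  have h3 : SmM X δ X' ε f₂ := ⟨fun x hx => by rw [← h hx]; exact h2.mem x hx,
    fun x hx y hy hd => by rw [← h hx, ← h hy]; exact h2.sm x hx y hy hd⟩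
  have e1 : pm0 h2 w = pm0 h3 w := by
    refine Form.ext_val fun V _ _ _ u s hu => ?_
    obtain ⟨F, hF⟩ := id hu
    have e2 : Finsupp.mapDomain f ∘ u =ᶠ[𝓝 s] Finsupp.mapDomain f₂ ∘ u := by
      filter_upwards [hF.out] with y h4
      refine Finsupp.mapDomain_congr fun x hx => h (hF.smF.1 x ?_)
      by_contra hx'
      exact (Finsupp.mem_support_iff.1 hx) (h4 x hx')
    exact (Form.pull_val (map_dm h2) w hu).trans
      ((w.congr (map_dm h2 hu) e2).trans (Form.pull_val (map_dm h3) w hu).symm)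
  exact (gmap_germ hf hε h1 h2 w).trans
    ((congrArg _ e1).trans (gmap_germ hf₂ hε h1 h3 w).symm)

theorem gmap_comp_eqOn {F : E → E''} (hg : UM X' X'' f') (hf : UM X X' f) (h : UM X X'' F)
    (e : EqOn F (f' ∘ f) X) (z : GA X'') : (gmap h).f z = (gmap hf).f ((gmap hg).f z) :=
  (gmap_eqOn h (hg.comp hf) e z).trans (gmap_comp hg hf (hg.comp hf) z)

theorem gmap_id_eqOn {F : E → E} (h : UM X X F) (e : EqOn F id X) (z : GA X) :
    (gmap h).f z = z := (gmap_eqOn h (UM.id X) e z).trans (gmap_id z)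

/-- a homogeneous form of positive degree vanishes on locally constant plots -/
theorem val_eq_zero_of_const {X₀ : Type*} {D : Dif X₀} {w : Form D} {p : ℕ}
    (hw : Form.IsDeg (p + 1) w) {V : Type} [NormedAddCommGroup V] [NormedSpace ℝ V]
    [FiniteDimensional ℝ V] {u : V → X₀} {s : V} {x₀ : X₀} (hu : D.At u s)
    (h : u =ᶠ[𝓝 s] fun _ => x₀) : w.val u s = 0 := by
  have h0 : D.At (fun _ : V => x₀) s := D.congr hu h
  have h2 : D.At (fun _ : ℝ => x₀) ((fun _ : V => (0 : ℝ)) s) := Dif.At_const h0 0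
  rw [w.congr hu h]
  have h3 : (fun _ : V => x₀) = (fun _ : ℝ => x₀) ∘ (fun _ : V => (0 : ℝ)) := rfl
  have h6 : fderiv ℝ (fun _ : V => (0 : ℝ)) s = 0 := by simp
  have h7 := w.nat (u := fun _ : ℝ => x₀) (g := fun _ : V => (0 : ℝ)) (x := s) h2
    (Sm.of_contDiff contDiff_const _)
  rw [h3, h7, h6, Vale.Agent.P231.Co.pull_zero_clm (E := V) (w.val (fun _ : ℝ => x₀) 0)]
  have h8 : aug (w.val (fun _ : ℝ => x₀) 0) = 0 := by
    have h9 : w.val (fun _ : ℝ => x₀) 0 = prt (p + 1) (w.val (fun _ : ℝ => x₀) 0) := by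
      conv_lhs => rw [← hw.part_eq]
      exact Form.part_val _ _ _ _
    rw [h9, aug_prt, if_neg (Nat.succ_ne_zero p)]
  rw [h8, map_zero]

/-- **Pull back along a constant map kills positive degrees.** -/
theorem gmap_const {b : E'} (h : UM X X' f) (hb : ∀ x ∈ X, f x = b) {p : ℕ} {z : GA X'}
    (hz : z ∈ (cdG X').C.deg (p + 1)) : (gmap h).f z = 0 := by
  obtain ⟨ε, hε, -, w, hw, rfl⟩ := (vr X').exists_deg hz one_pos
  obtain ⟨δ, h1, h2⟩ := h ε hε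
  refine (gmap_germ h hε h1 h2 w).trans ?_
  have e : pm0 h2 w = 0 := by
    refine Form.ext_val fun V _ _ _ u s hu => ?_
    obtain ⟨F, hF⟩ := id hu
    refine (Form.pull_val (map_dm h2) w hu).trans ?_
    refine val_eq_zero_of_const (x₀ := Finsupp.single b 1) hw (map_dm h2 hu) ?_
    filter_upwards [hF.out, hF.sum] with y h3 h4
    show Finsupp.mapDomain f (u y) = Finsupp.single b 1
    have h5 : (u y).support ⊆ F := fun x hx => by
      by_contra hx'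
      exact (Finsupp.mem_support_iff.1 hx) (h3 x hx')
    rw [Finsupp.mapDomain, Finsupp.sum_of_support_subset _ h5 _
      (fun x _ => Finsupp.single_zero _), Finset.sum_congr rfl fun x hx => by
        rw [hb x (hF.smF.1 x hx)], ← h4, Finsupp.single_finsetSum]
  exact (congrArg _ e).trans (map_zero ((vr X).germ h1))

end

end Vale.Agent.P216.H539V
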